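import Vale.Agent.P269.G1I.All
import Vale.Agent.P269.G2I.BSpec1
import Vale.Agent.P269.G2I.CSpec1
import Vale.Agent.P269.G2I.H333.YC
import Vale.Agent.P269.G2I.Model1
import Vale.Agent.P269.G2I.Model2
import Vale.Agent.P269.G2I.T.H521_SrB
import Vale.Agent.P269.G2I.T.H598_Ya
import Vale.Agent.P269.G2I.T.H861_Yb
import Vale.Agent.P269.G2I.XSpec1

/-!
# [J3a] The quantum Euler class at the zeros of the primitive coordinates
-/

set_option autoImplicit false

namespace Vale.Agent.P269.G2.H660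

open Vale.Agent.P269.CI
open Vale.Agent.P269.G1 (RR ser cst lamc)
open Vale.Agent.P269.G2.H333 (ev0 F_perm cor_perm ev0_csmul ev0_phi_sum ev0_phi_qc form_sum)
open Vale.Agent.P269.G2.H984 (RF)
open Vale.Agent.P269.G2.H521 (be QQ S mul_be pd_QQ)

variable {X : CompleteIntersection} {F : ℕ → ℕ → List (Ins X) → ℂ}

theorem cb_mul' (c : ℂ) (f : RM X) : cb (nx X) c * f = c • f := by
  unfold cb
  rw [← MvPowerSeries.smul_eq_C_mul]
  ext γ : 1
  change PowerSeries.C c * MvPowerSeries.coeff γ f = c • MvPowerSeries.coeff γ f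
  rw [← PowerSeries.smul_eq_C_mul]

theorem cas_apply (hF : IsGW X F) (he : Even X.dim) (b : Ix X) :
    cas hF he b = ∑ a, ∑ c, pairingInv X a c • qc F a c b := by
  unfold cas
  have h1 : (∑ a : Ix X, ∑ c : Ix X, cb (nx X) (pairingInv X a c) •
      (be hF he a * be hF he c) : AM hF he) b = ∑ a : Ix X, (∑ c : Ix X,
        cb (nx X) (pairingInv X a c) • (be hF he a * be hF he c) : AM hF he) b :=
    Finset.sum_apply (M := fun _ : Ix X => RM X) b Finset.univ _
  rw [h1]
  refine Finset.sum_congr rfl fun a _ => ?_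
  have h2 : (∑ c : Ix X, cb (nx X) (pairingInv X a c) •
      (be hF he a * be hF he c) : AM hF he) b = ∑ c : Ix X,
        (cb (nx X) (pairingInv X a c) • (be hF he a * be hF he c) : AM hF he) b :=
    Finset.sum_apply (M := fun _ : Ix X => RM X) b Finset.univ _
  rw [h2]
  refine Finset.sum_congr rfl fun c _ => ?_
  change cb (nx X) (pairingInv X a c) * (be hF he a * be hF he c : AM hF he) b = _
  rw [mul_be, cb_mul']
  rfl

/-- a sum over all pairs of classes with the inverse pairing -/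
theorem sum_pInv {M : Type*} [AddCommGroup M] [Module ℂ M] (g : Ix X → Ix X → M) :
    ∑ a, ∑ c, pairingInv X a c • g a c =
      (∑ i : Fin (X.dim + 1), ∑ j : Fin (X.dim + 1),
        pairingInv X (Sum.inl i) (Sum.inl j) • g (Sum.inl i) (Sum.inl j)) +
      ∑ u : X.Prim, ∑ w : X.Prim,
        pairingInv X (Sum.inr u) (Sum.inr w) • g (Sum.inr u) (Sum.inr w) := by
  rw [Fintype.sum_sum_type]
  congr 1
  · refine Finset.sum_congr rfl fun i _ => ?_
    rw [Fintype.sum_sum_type]
    have : ∑ v : X.Prim, pairingInv X (Sum.inl i) (Sum.inr v) • g (Sum.inl i) (Sum.inr v) = 0 := by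
      refine Finset.sum_eq_zero fun v _ => ?_
      have h : pairingInv X (Sum.inl i) (Sum.inr v) = 0 := rfl
      rw [h, zero_smul]
    rw [this, add_zero]
  · refine Finset.sum_congr rfl fun u _ => ?_
    rw [Fintype.sum_sum_type]
    have : ∑ j : Fin (X.dim + 1), pairingInv X (Sum.inr u) (Sum.inl j) •
        g (Sum.inr u) (Sum.inl j) = 0 := by
      refine Finset.sum_eq_zero fun v _ => ?_
      have h : pairingInv X (Sum.inr u) (Sum.inl v) = 0 := rfl
      rw [h, zero_smul]
    rw [this, zero_add]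

theorem ev0_phi_sum2 (h : Ix X → Ix X → ℂ) (g : Ix X → Ix X → RM X) :
    ev0 (phi X (∑ a, ∑ c, h a c • g a c)) = ∑ a, ∑ c, h a c • ev0 (phi X (g a c)) := by
  rw [map_sum, map_sum]
  exact Finset.sum_congr rfl fun a _ => ev0_phi_sum (h a) (g a)

/-- three primitive insertions -/
theorem ser_three_prim (h1 : IsGenusOne F) (u v w : X.Prim) :
    ser (cor F 0 [(Sum.inr u, 0), (Sum.inr v, 0), (Sum.inr w, 0)]) = 0 := by
  rw [← G1.H598.ser_zero (X := X)]
  refine G1.H598.ser_congr fun d L => ?_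
  exact h1.mono3 d u v w (L.map (hpow X)) (G1.H410.isAmb_map L)

/-- **[J3a]** mono1, mono3 -/
theorem ev0_cas_inr (hF : IsGW X F) (he : Even X.dim) (h1 : IsGenusOneFull F) (b : X.Prim) :
    ev0 (phi X (cas hF he (Sum.inr b))) = 0 := by
  rw [cas_apply, ev0_phi_sum2, sum_pInv]
  have e1 : ∀ i j : Fin (X.dim + 1),
      ev0 (phi X (qc F (Sum.inl i) (Sum.inl j) (Sum.inr b))) = 0 := fun i j =>
    H333.ev0_qc_inr hF he h1.toOne i j b
  have e2 : ∀ u w : X.Prim,
      ev0 (phi X (qc F (Sum.inr u) (Sum.inr w) (Sum.inr b))) = 0 := by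
    intro u w
    rw [ev0_phi_qc hF he]
    refine Finset.sum_eq_zero fun l _ => ?_
    rcases l with l | z
    · have h : pairingInv X (Sum.inl l) (Sum.inr b) = 0 := rfl
      rw [h, zero_smul]
    · rw [ser_three_prim h1.toOne, smul_zero]
  simp only [e1, e2, smul_zero, Finset.sum_const_zero, add_zero]

theorem pd_csum (b : Ix X) (h : Ix X → Ix X → ℂ) (g : Ix X → Ix X → RM X) :
    pd b (∑ a, ∑ c, h a c • g a c) = ∑ a, ∑ c, h a c • pd b (g a c) := by
  rw [H598.pd_sum]
  refine Finset.sum_congr rfl fun a _ => ?_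
  rw [H598.pd_sum]
  exact Finset.sum_congr rfl fun c _ => H598.pd_smul _ _ _

section

variable (hF : IsGW X F) (he : Even X.dim) (h1 : IsGenusOneFull F) (hc : IsCubic F)

/-- the number `Λ` of the contracted four-point function -/
noncomputable def La (hc : IsCubic F) : ℕ → List (Ins X) → ℂ := Classical.choose hc.schur

/-- the coefficient `ψ` -/
noncomputable def ps (h1 : IsGenusOneFull F) (hc : IsCubic F) : RR X :=
  (∑ i : Fin (X.dim + 1), ∑ j : Fin (X.dim + 1), pairingInv X (Sum.inl i) (Sum.inl j) •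
    MvPowerSeries.pderiv (PowerSeries ℂ) j (lamc h1.toOne i)) + ser (La hc)

include hF he in
/-- four primitive insertions, two of them contracted -/
theorem ser_four (v z : X.Prim) :
    ∑ u : X.Prim, ∑ w : X.Prim, pairingInv X (Sum.inr u) (Sum.inr w) •
      ser (cor F 0 [(Sum.inr v, 0), (Sum.inr u, 0), (Sum.inr w, 0), (Sum.inr z, 0)]) =
      X.form v z • ser (La hc) := by
  rw [← G1.H598.ser_smul]
  have e1 : ∀ u w : X.Prim, pairingInv X (Sum.inr u) (Sum.inr w) •
      ser (cor F 0 [(Sum.inr v, 0), (Sum.inr u, 0), (Sum.inr w, 0), (Sum.inr z, 0)]) =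
      ser (fun d L => pairingInv X (Sum.inr u) (Sum.inr w) *
        F 0 d ((Sum.inr v, 0) :: (Sum.inr z, 0) :: (Sum.inr u, 0) :: (Sum.inr w, 0) :: L)) := by
    intro u w
    have hp : ([(Sum.inr v, 0), (Sum.inr u, 0), (Sum.inr w, 0), (Sum.inr z, 0)] :
        List (Ins X)).Perm [(Sum.inr v, 0), (Sum.inr z, 0), (Sum.inr u, 0), (Sum.inr w, 0)] :=
      List.Perm.cons (Sum.inr v, 0) (List.perm_append_comm
        (l₁ := [(Sum.inr u, 0), (Sum.inr w, 0)]) (l₂ := [(Sum.inr z, 0)]))
    rw [cor_perm hF he 0 hp, ← G1.H598.ser_smul]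
    rfl
  simp only [e1]
  have e2 : ∀ A : X.Prim → X.Prim → ℕ → List (Ins X) → ℂ,
      ∑ u : X.Prim, ∑ w : X.Prim, ser (A u w) =
        ser (fun d L => ∑ u : X.Prim, ∑ w : X.Prim, A u w d L) := by
    intro A
    rw [G1.H598.ser_sum]
    exact Finset.sum_congr rfl fun u _ => (G1.H598.ser_sum _ _).symm
  rw [e2]
  refine G1.H598.ser_congr fun d L => ?_
  exact Classical.choose_spec hc.schur d v z (L.map (hpow X)) (G1.H410.isAmb_map L)

/-- **[J3b]**, first part -/
theorem ev0_pd_cas_aux (v b : X.Prim) :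
    ev0 (MvPowerSeries.pderiv (PowerSeries ℂ) (Sum.inr v) (phi X (cas hF he (Sum.inr b)))) =
      if v = b then ps h1 hc else 0 := by
  rw [← phi_pd, cas_apply, pd_csum, ev0_phi_sum2, sum_pInv]
  have e1 : ∀ i j : Fin (X.dim + 1),
      ev0 (phi X (pd (Sum.inr v) (qc F (Sum.inl i) (Sum.inl j) (Sum.inr b)))) =
      if v = b then MvPowerSeries.pderiv (PowerSeries ℂ) j (lamc h1.toOne i) else 0 := by
    intro i j
    rw [phi_pd]
    exact H333.ev0_pd_qc hF he h1.toOne v i j b
  have e2 : ∀ u w : X.Prim,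
      ev0 (phi X (pd (Sum.inr v) (qc F (Sum.inr u) (Sum.inr w) (Sum.inr b)))) =
      ∑ z : X.Prim, pairingInv X (Sum.inr z) (Sum.inr b) • ser (cor F 0
        [(Sum.inr v, 0), (Sum.inr u, 0), (Sum.inr w, 0), (Sum.inr z, 0)]) := by
    intro u w
    rw [H521.qc_eq, pd_QQ hF he]
    unfold QQ
    rw [ev0_phi_sum, Fintype.sum_sum_type]
    have z : ∑ l : Fin (X.dim + 1), pairingInv X (Sum.inl l) (Sum.inr b) •
        ev0 (phi X (S F 0 ([(Sum.inr v, 0), (Sum.inr u, 0), (Sum.inr w, 0)] ++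
          [(Sum.inl l, 0)]))) = 0 := by
      refine Finset.sum_eq_zero fun l _ => ?_
      have : pairingInv X (Sum.inl l) (Sum.inr b) = 0 := rfl
      rw [this, zero_smul]
    rw [z, zero_add]
    refine Finset.sum_congr rfl fun l _ => congrArg _ ?_
    exact ev0_phi_sr _ (symF_cor (E0 X) hF he 0 _)
  simp only [e1, e2]
  have e3 : ∑ u : X.Prim, ∑ w : X.Prim, pairingInv X (Sum.inr u) (Sum.inr w) •
      ∑ z : X.Prim, pairingInv X (Sum.inr z) (Sum.inr b) • ser (cor F 0
        [(Sum.inr v, 0), (Sum.inr u, 0), (Sum.inr w, 0), (Sum.inr z, 0)]) =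
      if v = b then ser (La hc) else 0 := by
    rw [← form_sum _ v b]
    simp only [← ser_four hF he hc, Finset.smul_sum]
    rw [Finset.sum_congr rfl fun u _ => Finset.sum_comm, Finset.sum_comm]
    refine Finset.sum_congr rfl fun z _ => Finset.sum_congr rfl fun u _ =>
      Finset.sum_congr rfl fun w _ => ?_
    rw [smul_comm]
  rw [e3]
  unfold ps
  by_cases h : v = b
  · simp only [if_pos h]
  · simp only [if_neg h, smul_zero, Finset.sum_const_zero, add_zero]

end

end Vale.Agent.P269.G2.H660
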