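import Vale.Agent.P269.G1I.All
import Vale.Agent.P269.G2I.BSpec1
import Vale.Agent.P269.G2I.CSpec1
import Vale.Agent.P269.G2I.H660.CasEv
import Vale.Agent.P269.G2I.Model1
import Vale.Agent.P269.G2I.XSpec1

/-!
# [J3b] The value at the origin of the coefficient `ψ` for a cubic hypersurface
-/

set_option autoImplicit false

namespace Vale.Agent.P269.G2.H660

open Vale.Agent.P269.CI
open Vale.Agent.P269.G1 (RR ser cst lamc)
open Vale.Agent.P269.G2.H333 (ev0 F_perm cor_perm)

variable {X : CompleteIntersection} {F : ℕ → ℕ → List (Ins X) → ℂ}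

theorem og_ser (A : ℕ → List (Ins X) → ℂ) : og (ser A) = PowerSeries.mk fun d => A d [] := by
  unfold og ser
  rw [G1.H598.constantCoeff_toSer]
  rfl

theorem og_smul (c : ℂ) (f : RR X) : og (c • f) = c • og f := by
  unfold og
  rw [← MvPowerSeries.coeff_zero_eq_constantCoeff_apply,
    ← MvPowerSeries.coeff_zero_eq_constantCoeff_apply]
  rfl

theorem index_cubic (hd : X.degs = [3]) : index X = (X.dim : ℤ) - 1 := by
  unfold index
  rw [hd]
  simp
  ring

theorem deg_cubic (hd : X.degs = [3]) : deg X = 3 := by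
  unfold deg
  rw [hd]
  simp

/-- the dimension count for four insertions of total degree `2 r + 2 r` -/
theorem deg_one (hF : IsGW X F) (hX : 4 ≤ X.dim) (hd : X.degs = [3]) (d : ℕ) (a b c e : Ix X)
    (hs : ((hp X a + hq X a + (hp X b + hq X b) + (hp X c + hq X c) + (hp X e + hq X e) : ℕ) : ℤ) =
      4 * X.dim) (h : d ≠ 1) : F 0 d [(a, 0), (b, 0), (c, 0), (e, 0)] = 0 := by
  by_contra hne
  have h1 := hF.grading_p 0 d _ hne
  have h2 := hF.grading_q 0 d _ hne
  simp only [List.map_cons, List.map_nil, List.sum_cons, List.sum_nil] at h1 h2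
  rw [index_cubic hd] at h1 h2
  push_cast at h1 h2 hs
  have h3 : ((X.dim : ℤ) - 1) * ((d : ℤ) - 1) = 0 := by linarith
  rcases mul_eq_zero.mp h3 with h4 | h4
  · have : (4 : ℤ) ≤ X.dim := by exact_mod_cast hX
    omega
  · omega

theorem hpq_inr (v : X.Prim) : hp X (Sum.inr v) + hq X (Sum.inr v) = X.dim := by
  have := X.hodgeP_le v
  simp only [hp, hq]
  omega

/-- no insertion of the unit in a four-point function without descendants -/
theorem string_four (hF : IsGW X F) (d : ℕ) (b c e : Ix X) :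
    F 0 d [(one X, 0), (b, 0), (c, 0), (e, 0)] = 0 := by
  rw [hF.string]
  have h1 : lowerSum X (fun a b => if a = b then 1 else 0) (F 0 d)
      [(b, 0), (c, 0), (e, 0)] = 0 := by
    unfold lowerSum
    refine Finset.sum_eq_zero fun j _ => ?_
    rw [if_pos]
    fin_cases j <;> rfl
  rw [h1, zero_add]
  have h2 : pairTerm X (pairing X) [(b, 0), (c, 0), (e, 0)] = 0 := rfl
  rw [h2, ite_self]

/-- the two-point function of primitive classes, differentiated -/
theorem og_pd_lamc (hF : IsGW X F) (he : Even X.dim) (h1 : IsGenusOne F) (hX : 4 ≤ X.dim)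
    (hd : X.degs = [3]) (hc : IsCubic F) (u v : X.Prim) (h0 : X.form u v ≠ 0)
    (i j : Fin (X.dim + 1)) (hij : (i : ℕ) + j = X.dim) :
    og (MvPowerSeries.pderiv (PowerSeries ℂ) j (lamc h1 i)) =
      if 1 ≤ (i : ℕ) ∧ 1 ≤ (j : ℕ) then (-6 : ℂ) • PowerSeries.X else 0 := by
  have e5 : X.form u v • MvPowerSeries.pderiv (PowerSeries ℂ) j (lamc h1 i) =
      ser (cor F 0 (hpow X j :: [(Sum.inr u, 0), (Sum.inr v, 0), hpow X i])) := by
    rw [← G1.pderiv_cor hF, H333.ser_two_prim h1 u v i]
    rw [G1.H598.smul_RR, G1.H598.smul_RR, Derivation.leibniz]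
    unfold G1.H598.kst
    rw [MvPowerSeries.pderiv_C, smul_zero, add_zero, smul_eq_mul]
  have e6 := congrArg og e5
  rw [og_smul, og_ser] at e6
  have e7 : (PowerSeries.mk fun d => cor F 0 (hpow X j :: [(Sum.inr u, 0), (Sum.inr v, 0),
      hpow X i]) d []) = X.form u v •
        (if 1 ≤ (i : ℕ) ∧ 1 ≤ (j : ℕ) then (-6 : ℂ) • (PowerSeries.X : PowerSeries ℂ) else 0) := by
    ext d
    rw [PowerSeries.coeff_mk]
    change F 0 d [hpow X j, (Sum.inr u, 0), (Sum.inr v, 0), hpow X i] = _
    by_cases hj : 1 ≤ (j : ℕ)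
    · have p1 : ([hpow X j, (Sum.inr u, 0), (Sum.inr v, 0), hpow X i] : List (Ins X)).Perm
          [hpow X i, hpow X j, (Sum.inr u, 0), (Sum.inr v, 0)] :=
        List.perm_append_comm (l₁ := [hpow X j, (Sum.inr u, 0), (Sum.inr v, 0)])
          (l₂ := [hpow X i])
      have p2 : ([hpow X i, hpow X j, (Sum.inr u, 0), (Sum.inr v, 0)] : List (Ins X)).Perm
          [(Sum.inr u, 0), (Sum.inr v, 0), hpow X i, hpow X j] :=
        List.perm_append_comm (l₁ := [hpow X i, hpow X j])
          (l₂ := [(Sum.inr u, 0), (Sum.inr v, 0)])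
      rw [F_perm hF he 0 d p1]
      by_cases hi : 1 ≤ (i : ℕ)
      · rw [if_pos ⟨hi, hj⟩, F_perm hF he 0 d p2]
        by_cases hd1 : d = 1
        · subst hd1
          have h := hc.two u v i j hi hj hij
          change F 0 1 [(Sum.inr u, 0), (Sum.inr v, 0), (Sum.inl i, 0), (Sum.inl j, 0)] = _
          rw [h, smul_smul, PowerSeries.coeff_smul, PowerSeries.coeff_one_X, smul_eq_mul]
          ring
        · have hz : F 0 d [(Sum.inr u, 0), (Sum.inr v, 0), (Sum.inl i, 0), (Sum.inl j, 0)] = 0 := by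
            refine deg_one hF hX hd d _ _ _ _ ?_ hd1
            rw [hpq_inr, hpq_inr]
            simp only [hp, hq]
            push_cast
            have : ((i : ℕ) : ℤ) + (j : ℕ) = X.dim := by exact_mod_cast hij
            linarith
          change F 0 d [(Sum.inr u, 0), (Sum.inr v, 0), (Sum.inl i, 0), (Sum.inl j, 0)] = _
          rw [hz, smul_smul, PowerSeries.coeff_smul, PowerSeries.coeff_X, if_neg hd1, smul_zero]
      · have hi0 : i = 0 := by
          apply Fin.ext
          change (i : ℕ) = 0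
          omega
        rw [if_neg (fun h => hi h.1), smul_zero, map_zero]
        subst hi0
        exact string_four hF d (Sum.inl j) (Sum.inr u) (Sum.inr v)
    · have hj0 : j = 0 := by
        apply Fin.ext
        change (j : ℕ) = 0
        omega
      rw [if_neg (fun h => hj h.2), smul_zero, map_zero]
      subst hj0
      exact string_four hF d (Sum.inr u) (Sum.inr v) (Sum.inl i)
  rw [e7] at e6
  have h3 := congrArg (fun f : PowerSeries ℂ => (X.form u v)⁻¹ • f) e6
  simp only [smul_smul, inv_mul_cancel₀ h0, one_smul] at h3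
  exact h3

/-- the ambient part -/
theorem og_amb (hF : IsGW X F) (he : Even X.dim) (h1 : IsGenusOne F) (hX : 4 ≤ X.dim)
    (hd : X.degs = [3]) (hc : IsCubic F) (u v : X.Prim) (h0 : X.form u v ≠ 0) :
    og (∑ i : Fin (X.dim + 1), ∑ j : Fin (X.dim + 1), pairingInv X (Sum.inl i) (Sum.inl j) •
      MvPowerSeries.pderiv (PowerSeries ℂ) j (lamc h1 i)) =
      (-2 * ((X.dim : ℂ) - 1)) • PowerSeries.X := by
  have e1 : ∀ i : Fin (X.dim + 1), og (∑ j : Fin (X.dim + 1),
      pairingInv X (Sum.inl i) (Sum.inl j) •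
        MvPowerSeries.pderiv (PowerSeries ℂ) j (lamc h1 i)) =
      (if 1 ≤ (i : ℕ) ∧ (i : ℕ) < X.dim then (-2 : ℂ) else 0) • PowerSeries.X := by
    intro i
    have e2 : og (∑ j : Fin (X.dim + 1), pairingInv X (Sum.inl i) (Sum.inl j) •
        MvPowerSeries.pderiv (PowerSeries ℂ) j (lamc h1 i)) =
        ∑ j : Fin (X.dim + 1), pairingInv X (Sum.inl i) (Sum.inl j) •
        og (MvPowerSeries.pderiv (PowerSeries ℂ) j (lamc h1 i)) := by
      unfold og
      rw [map_sum]
      exact Finset.sum_congr rfl fun j _ => og_smul _ _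
    rw [e2, Finset.sum_eq_single (Fin.rev i)]
    · have hij : (i : ℕ) + (Fin.rev i : Fin (X.dim + 1)) = X.dim := by
        rw [Fin.val_rev]
        have := i.2
        omega
      rw [og_pd_lamc hF he h1 hX hd hc u v h0 i _ hij]
      have hη : pairingInv X (Sum.inl i) (Sum.inl (Fin.rev i)) = 3⁻¹ := by
        change (if (i : ℕ) + (Fin.rev i : Fin (X.dim + 1)) = X.dim then (deg X)⁻¹ else 0) = _
        rw [if_pos hij, deg_cubic hd]
      rw [hη]
      by_cases h : 1 ≤ (i : ℕ) ∧ (i : ℕ) < X.dim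
      · rw [if_pos h, if_pos ⟨h.1, by omega⟩, smul_smul]
        norm_num
      · rw [if_neg h, if_neg (fun h2 => h ⟨h2.1, by omega⟩), smul_zero, zero_smul]
    · intro j _ hj
      have hη : pairingInv X (Sum.inl i) (Sum.inl j) = 0 := by
        change (if (i : ℕ) + (j : ℕ) = X.dim then (deg X)⁻¹ else 0) = _
        rw [if_neg]
        intro hij
        apply hj
        apply Fin.ext
        rw [Fin.val_rev]
        omega
      rw [hη, zero_smul]
    · intro h
      exact absurd (Finset.mem_univ _) h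
  have e3 : og (∑ i : Fin (X.dim + 1), ∑ j : Fin (X.dim + 1),
      pairingInv X (Sum.inl i) (Sum.inl j) •
        MvPowerSeries.pderiv (PowerSeries ℂ) j (lamc h1 i)) =
      ∑ i : Fin (X.dim + 1), og (∑ j : Fin (X.dim + 1),
        pairingInv X (Sum.inl i) (Sum.inl j) •
          MvPowerSeries.pderiv (PowerSeries ℂ) j (lamc h1 i)) := by
    unfold og
    rw [map_sum]
  rw [e3]
  simp only [e1]
  rw [← Finset.sum_smul]
  congr 1
  have e4 : ∑ i : Fin (X.dim + 1), (if 1 ≤ (i : ℕ) ∧ (i : ℕ) < X.dim then (-2 : ℂ) else 0) =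
      ∑ i ∈ Finset.range (X.dim + 1), (if 1 ≤ i ∧ i < X.dim then (-2 : ℂ) else 0) :=
    Fin.sum_univ_eq_sum_range (fun i => if 1 ≤ i ∧ i < X.dim then (-2 : ℂ) else 0) (X.dim + 1)
  rw [e4]
  obtain ⟨r, hr⟩ : ∃ r, X.dim = r + 1 := ⟨X.dim - 1, by omega⟩
  rw [hr, Finset.sum_range_succ, Finset.sum_range_succ', if_neg (by omega), if_neg (by omega),
    Finset.sum_congr rfl (fun i hi => if_pos (by
      rw [Finset.mem_range] at hi
      omega)), Finset.sum_const, Finset.card_range]
  rw [nsmul_eq_mul]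
  push_cast
  ring

/-- the inverse of the form -/
theorem form_inv (he : Even X.dim) (w v : X.Prim) :
    ∑ z : X.Prim, pairingInv X (Sum.inr w) (Sum.inr z) * X.form v z = if w = v then 1 else 0 := by
  have h2 : (Matrix.of X.form)⁻¹ * (Matrix.of X.form) = 1 :=
    Matrix.nonsing_inv_mul _ (isUnit_iff_ne_zero.2 X.form_nondeg)
  have h3 := congrFun (congrFun h2 w) v
  rw [Matrix.mul_apply, Matrix.one_apply] at h3
  rw [← h3]
  refine Finset.sum_congr rfl fun z _ => ?_
  have h4 := X.form_symm v z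
  rw [he.neg_one_pow, one_mul] at h4
  rw [h4]
  rfl

theorem La_one (hc : IsCubic F) (he : Even X.dim) (u v : X.Prim) (h0 : X.form u v ≠ 0) :
    La hc 1 [] = np X + 2 := by
  have h := Classical.choose_spec hc.schur 1 u v [] (by simp)
  have e1 : ∑ w : X.Prim, ∑ z : X.Prim, pairingInv X (Sum.inr w) (Sum.inr z) *
      F 0 1 [(Sum.inr u, 0), (Sum.inr v, 0), (Sum.inr w, 0), (Sum.inr z, 0)] =
      X.form u v * (np X + 2) := by
    have e2 : ∀ w : X.Prim, ∑ z : X.Prim, pairingInv X (Sum.inr w) (Sum.inr z) *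
        F 0 1 [(Sum.inr u, 0), (Sum.inr v, 0), (Sum.inr w, 0), (Sum.inr z, 0)] =
        X.form u v + X.form u w * (if w = v then 1 else 0) +
          X.form v w * (if w = u then 1 else 0) := by
      intro w
      have h5 : (1 : ℂ) = ∑ z : X.Prim, pairingInv X (Sum.inr w) (Sum.inr z) * X.form w z := by
        rw [form_inv he, if_pos rfl]
      rw [← form_inv he w v, ← form_inv he w u]
      calc _ = ∑ z : X.Prim, (X.form u v * (pairingInv X (Sum.inr w) (Sum.inr z) * X.form w z) +
            X.form u w * (pairingInv X (Sum.inr w) (Sum.inr z) * X.form v z) +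
            X.form v w * (pairingInv X (Sum.inr w) (Sum.inr z) * X.form u z)) := by
              refine Finset.sum_congr rfl fun z _ => ?_
              rw [hc.four]
              ring
        _ = _ := by
              rw [Finset.sum_add_distrib, Finset.sum_add_distrib, ← Finset.mul_sum,
                ← Finset.mul_sum, ← Finset.mul_sum, ← h5, mul_one]
    simp only [e2]
    rw [Finset.sum_add_distrib, Finset.sum_add_distrib]
    simp only [mul_ite, mul_one, mul_zero]
    rw [Finset.sum_ite_eq' Finset.univ v, Finset.sum_ite_eq' Finset.univ u,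
      if_pos (Finset.mem_univ _), if_pos (Finset.mem_univ _), Finset.sum_const, nsmul_eq_mul]
    have h4 := X.form_symm v u
    rw [he.neg_one_pow, one_mul] at h4
    rw [h4]
    unfold np
    rw [Finset.card_univ]
    ring
  have e3 : X.form u v * (np X + 2) = X.form u v * La hc 1 [] := by
    rw [← e1]
    exact h
  exact (mul_left_cancel₀ h0 e3).symm

theorem La_ne (hF : IsGW X F) (hX : 4 ≤ X.dim) (hd : X.degs = [3]) (hc : IsCubic F)
    (u v : X.Prim) (h0 : X.form u v ≠ 0) (d : ℕ) (h1 : d ≠ 1) : La hc d [] = 0 := by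
  have h := Classical.choose_spec hc.schur d u v [] (by simp)
  have e1 : ∑ w : X.Prim, ∑ z : X.Prim, pairingInv X (Sum.inr w) (Sum.inr z) *
      F 0 d [(Sum.inr u, 0), (Sum.inr v, 0), (Sum.inr w, 0), (Sum.inr z, 0)] = 0 := by
    refine Finset.sum_eq_zero fun w _ => Finset.sum_eq_zero fun z _ => ?_
    rw [deg_one hF hX hd d _ _ _ _ ?_ h1, mul_zero]
    rw [hpq_inr, hpq_inr, hpq_inr, hpq_inr]
    push_cast
    ring
  have e3 : X.form u v * La hc d [] = 0 := by
    rw [← e1]
    exact h.symm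
  exact (mul_eq_zero.mp e3).resolve_left h0

theorem exists_form_ne (v : X.Prim) : ∃ u w : X.Prim, X.form u w ≠ 0 := by
  by_contra hcon
  push Not at hcon
  apply X.form_nondeg
  have hz : (Matrix.of X.form) = 0 := by
    ext u w
    exact hcon u w
  have hn : Nonempty X.Prim := ⟨v⟩
  rw [hz]
  exact Matrix.det_zero

/-- **[J3b]** mono2, schur -/
theorem ev0_pd_cas (hF : IsGW X F) (he : Even X.dim) (h1 : IsGenusOneFull F) (hX : 4 ≤ X.dim)
    (hd : X.degs = [3]) (hc : IsCubic F) : ∃ ψ : RR X,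
    (∀ v b, ev0 (MvPowerSeries.pderiv (PowerSeries ℂ) (Sum.inr v)
      (phi X (cas hF he (Sum.inr b)))) = if v = b then ψ else 0) ∧
    og ψ = PowerSeries.C (np X + 4 - 2 * (X.dim : ℂ)) * PowerSeries.X := by
  rcases isEmpty_or_nonempty X.Prim with hE | ⟨⟨v0⟩⟩
  · refine ⟨MvPowerSeries.C (PowerSeries.C (np X + 4 - 2 * (X.dim : ℂ)) * PowerSeries.X),
      fun v => isEmptyElim v, ?_⟩
    unfold og
    rw [MvPowerSeries.constantCoeff_C]
  · obtain ⟨u, v, h0⟩ := exists_form_ne v0
    refine ⟨ps h1 hc, fun v b => ev0_pd_cas_aux hF he h1 hc v b, ?_⟩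
    have e1 : og (ps h1 hc) = og (∑ i : Fin (X.dim + 1), ∑ j : Fin (X.dim + 1),
        pairingInv X (Sum.inl i) (Sum.inl j) •
          MvPowerSeries.pderiv (PowerSeries ℂ) j (lamc h1.toOne i)) + og (ser (La hc)) :=
      map_add MvPowerSeries.constantCoeff _ _
    rw [e1, og_amb hF he h1.toOne hX hd hc u v h0, og_ser]
    have e2 : (PowerSeries.mk fun d => La hc d []) = (np X + 2) • PowerSeries.X := by
      ext d
      rw [PowerSeries.coeff_mk, PowerSeries.coeff_smul]
      by_cases hd1 : d = 1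
      · subst hd1
        rw [La_one hc he u v h0, PowerSeries.coeff_one_X, smul_eq_mul, mul_one]
      · rw [La_ne hF hX hd hc u v h0 d hd1, PowerSeries.coeff_X, if_neg hd1, smul_zero]
    rw [e2, ← add_smul, ← PowerSeries.smul_eq_C_mul]
    congr 1
    ring

end Vale.Agent.P269.G2.H660
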